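import Vale.Agent.Lib.P160.Level2

namespace Vale.Agent.Results.P160.LevelSets

open Vale.Agent.Lib.P160

/-- Null vectors with a large level set, for a uniformly random symmetric `n × n` sign matrix.
With `levelProb ε n` the probability that there is a nonzero real null vector with at least
`ε n` equal coordinates (any common value, zero or not), and `valuesProb m n` the probability
that there is a nonzero real null vector with at most `m` distinct coordinate values: there is
an absolute constant `C` with `levelProb ε n ≤ n(n-1)/2^n + C (243/512)^n` whenever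
`ε log₂ n ≥ 40`; the lower bound `n(n-1)/2^n - n(n-1)(n(n-1)-2)/4^n ≤ levelProb ε n` holds as
soon as `(1 - ε) n ≥ 2`; hence `2^n levelProb (40 / log₂ n) n / n^2 → 1`; the same upper bound
holds for `valuesProb m n` whenever `40 m ≤ log₂ n`; and `levelProb ε n` is a lower bound for
the singularity probability `singProb n`. -/
theorem result :
    (∃ C : ℝ, ∀ (ε : ℝ) (n : ℕ), 40 ≤ ε * Real.logb 2 (n : ℝ) →
      levelProb ε n ≤ ((n : ℝ) * ((n : ℝ) - 1)) / 2 ^ n + C * (243 / 512) ^ n) ∧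
    (∀ (ε : ℝ) (n : ℕ), 2 ≤ (1 - ε) * (n : ℝ) →
      ((n : ℝ) * ((n : ℝ) - 1)) / 2 ^ n -
        ((n : ℝ) * ((n : ℝ) - 1) * ((n : ℝ) * ((n : ℝ) - 1) - 2)) / 4 ^ n ≤ levelProb ε n) ∧
    Filter.Tendsto
      (fun n : ℕ => levelProb (40 / Real.logb 2 (n : ℝ)) n * 2 ^ n / (n : ℝ) ^ 2)
      Filter.atTop (nhds 1) ∧
    (∃ C : ℝ, ∀ (m n : ℕ), 1 ≤ m → 40 * (m : ℝ) ≤ Real.logb 2 (n : ℝ) →
      valuesProb m n ≤ ((n : ℝ) * ((n : ℝ) - 1)) / 2 ^ n + C * (243 / 512) ^ n) ∧
    (∀ (ε : ℝ) (n : ℕ), levelProb ε n ≤ singProb n) :=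
  ⟨exists_const_levelProb_le_log, fun _ _ hn => levelProb_ge hn, levelProb_log_tendsto,
    exists_const_valuesProb_le_log, levelProb_le_singProb⟩

end Vale.Agent.Results.P160.LevelSets
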