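import Vale.Agent.Lib.P160.RV5

namespace Vale.Agent.Results.P160.ManyValues

open Vale.Agent.Lib.P160

/-- Null vectors with at most `n / 30` distinct coordinate values, for a uniformly random
symmetric `n × n` sign matrix. With `valuesProb m n` the probability that there is a nonzero
real null vector with at most `m` distinct coordinate values: there is an absolute constant `C`
with `valuesProb m n ≤ n(n-1)/2^n + C (243/512)^n` whenever `30 m ≤ n`; the lower bound
`n(n-1)/2^n - n(n-1)(n(n-1)-2)/4^n ≤ valuesProb m n` holds for all `m ≥ 3`; hence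
`2^n valuesProb (⌊n / 30⌋) n / n^2 → 1` (natural-number division); and `valuesProb m n` is a
lower bound for the singularity probability `singProb n`. -/
theorem result :
    (∃ C : ℝ, ∀ (m n : ℕ), 30 * m ≤ n →
      valuesProb m n ≤ ((n : ℝ) * ((n : ℝ) - 1)) / 2 ^ n + C * (243 / 512) ^ n) ∧
    (∀ (m n : ℕ), 3 ≤ m →
      ((n : ℝ) * ((n : ℝ) - 1)) / 2 ^ n -
        ((n : ℝ) * ((n : ℝ) - 1) * ((n : ℝ) * ((n : ℝ) - 1) - 2)) / 4 ^ n ≤ valuesProb m n) ∧
    Filter.Tendsto
      (fun n : ℕ => valuesProb (n / 30) n * 2 ^ n / (n : ℝ) ^ 2)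
      Filter.atTop (nhds 1) ∧
    (∀ (m n : ℕ), valuesProb m n ≤ singProb n) :=
  ⟨exists_const_valuesProb_lin, fun _ n hm => valuesProb_ge hm n, valuesProb_lin_tendsto,
    valuesProb_le_singProb⟩

end Vale.Agent.Results.P160.ManyValues
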