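import Vale.Agent.Lib.P160.RV5

namespace Vale.Agent.Results.P160.RareValues

open Vale.Agent.Lib.P160

/-- Null vectors with few rare coordinate values, for a uniformly random symmetric `n × n` sign
matrix. Call a coordinate value of a vector `v` rare if fewer than `8` coordinates of `v` are
equal to it, and let `rareProb R n` be the probability that there is a nonzero real null vector
with at most `R` rare values (for `R = 0`: every value of the null vector is repeated at least
`8` times). There is an absolute constant `C` with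
`rareProb R n ≤ n(n-1)/2^n + C (243/512)^n` whenever `120 R ≤ n`; the lower bound
`n(n-1)/2^n - n(n-1)(n(n-1)-2)/4^n ≤ rareProb R n` holds for all `R ≥ 2` and `n ≥ 10`; hence
`2^n rareProb (⌊n / 120⌋) n / n^2 → 1` (natural-number division); and `rareProb R n` is a lower
bound for the singularity probability `singProb n`. -/
theorem result :
    (∃ C : ℝ, ∀ (R n : ℕ), 120 * R ≤ n →
      rareProb R n ≤ ((n : ℝ) * ((n : ℝ) - 1)) / 2 ^ n + C * (243 / 512) ^ n) ∧
    (∀ (R n : ℕ), 2 ≤ R → 10 ≤ n →
      ((n : ℝ) * ((n : ℝ) - 1)) / 2 ^ n -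
        ((n : ℝ) * ((n : ℝ) - 1) * ((n : ℝ) * ((n : ℝ) - 1) - 2)) / 4 ^ n ≤ rareProb R n) ∧
    Filter.Tendsto
      (fun n : ℕ => rareProb (n / 120) n * 2 ^ n / (n : ℝ) ^ 2)
      Filter.atTop (nhds 1) ∧
    (∀ (R n : ℕ), rareProb R n ≤ singProb n) :=
  ⟨exists_const_rareProb_lin, fun _ _ hR hn => rareProb_ge hR hn, rareProb_lin_tendsto,
    rareProb_le_singProb⟩

end Vale.Agent.Results.P160.RareValues
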