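import Vale.Agent.Lib.P160.Fam3

namespace Vale.Agent.Results.P160.SubspaceFamilies

open Vale.Agent.Lib.P160

/-- Null vectors in a small family of subspaces, for a uniformly random symmetric `n × n` sign
matrix. (1) There is an absolute constant `C` such that for every finite family `F` of linear
subspaces of `ℝ^n`, each of dimension at most `d`, with
`|F|^2 2^(7n) ≤ (n - d - ⌈40 n / log₂ n⌉)!`, the probability that some `V ∈ F` contains a
nonzero null vector is at most `n(n-1)/2^n + C (243/512)^n`. (2) There is an absolute constant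
`C` such that for all `ε`, `n` with `ε log₂ n ≥ 100` and all vectors `b 0, …, b (n-1)` of
`ℝ^n`, the probability of a nonzero null vector in the span of `{b i : i ∈ S}` for some index
set `S` with `|S| ≤ (1 - ε) n` is at most `n(n-1)/2^n + C (243/512)^n`. (3) The singularity
probability `singProb n` is at least `n(n-1)/2^n - n(n-1)(n(n-1)-2)/4^n`. -/
theorem result :
    (∃ C : ℝ, ∀ (n d : ℕ) (F : Finset (Submodule ℝ (Fin n → ℝ))),
      (∀ V ∈ F, Module.finrank ℝ V ≤ d) →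
      F.card ^ 2 * 2 ^ (7 * n) ≤
        (n - d - ⌈40 * (n : ℝ) / Real.logb 2 (n : ℝ)⌉₊).factorial →
      symProb n (fun M => ∃ V ∈ F, ∃ v ∈ V, v ≠ 0 ∧ M.mulVec v = 0) ≤
        ((n : ℝ) * ((n : ℝ) - 1)) / 2 ^ n + C * (243 / 512) ^ n) ∧
    (∃ C : ℝ, ∀ (ε : ℝ) (n : ℕ) (b : Fin n → Fin n → ℝ), 100 ≤ ε * Real.logb 2 (n : ℝ) →
      symProb n (fun M => ∃ v : Fin n → ℝ, v ≠ 0 ∧
        (∃ S : Finset (Fin n), (S.card : ℝ) ≤ (1 - ε) * (n : ℝ) ∧
          v ∈ Submodule.span ℝ (b '' (S : Set (Fin n)))) ∧ M.mulVec v = 0) ≤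
        ((n : ℝ) * ((n : ℝ) - 1)) / 2 ^ n + C * (243 / 512) ^ n) ∧
    (∀ n : ℕ, ((n : ℝ) * ((n : ℝ) - 1)) / 2 ^ n -
        ((n : ℝ) * ((n : ℝ) - 1) * ((n : ℝ) * ((n : ℝ) - 1) - 2)) / 4 ^ n ≤ singProb n) :=
  ⟨exists_const_famProb_le, exists_const_basisProb_le, lowerB_le_singProb⟩

end Vale.Agent.Results.P160.SubspaceFamilies
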